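import Vale.Agent.LipFree.Graph

/-!
# P090: bounded approximation in free spaces over uniformly discrete spaces

Positive answers for nets in all Banach spaces with the BAP (more generally for all uniformly
discrete coarse Lipschitz retracts of such spaces) and for all Gromov hyperbolic graphs, coarse
invariance, and equivalence of the whole question with its restriction to nets in Banach spaces
and with its restriction to graphs.
-/

open Vale.Agent.LF

universe u v

theorem Vale.Agent.Results.P090.CoarseBAP.result :
    -- (1) coarse Lipschitz retracts of Banach spaces with the BAP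
    (∀ (X : Type u) (M : Type v) [NormedAddCommGroup X] [NormedSpace ℝ X] [CompleteSpace X]
      [MetricSpace M] (o : M), HasBAP X → UniformlyDiscrete M → CoarseRetract M X →
      HasBAP (LipFree M o)) ∧
    -- (2) in particular: nets in Banach spaces with the BAP
    (∀ (X : Type u) [NormedAddCommGroup X] [NormedSpace ℝ X] [CompleteSpace X], HasBAP X →
      ∀ N : Set X, IsNet N → ∀ o : N, HasBAP (LipFree N o)) ∧
    -- (3) roughly geodesic Gromov hyperbolic spaces, without any finiteness assumption
    (∀ (M : Type u) [MetricSpace M] (o : M), UniformlyDiscrete M → RoughlyGeodesic M →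
      GromovHyperbolic M → HasBAP (LipFree M o)) ∧
    -- (4) in particular: hyperbolic graphs
    (∀ (V : Type u) (G : SimpleGraph V) (hG : G.Connected), GromovHyperbolic (GraphSpace G hG) →
      ∀ o : GraphSpace G hG, HasBAP (LipFree (GraphSpace G hG) o)) ∧
    -- (5) coarse invariance: the BAP passes to coarse Lipschitz retracts
    (∀ (M : Type u) (M' : Type v) [MetricSpace M] [MetricSpace M'] (o : M) (o' : M'),
      UniformlyDiscrete M → UniformlyDiscrete M' → CoarseRetract M' M →
      HasBAP (LipFree M o) → HasBAP (LipFree M' o')) ∧
    -- (6) for each uniformly discrete `M`, the question for `M` is the question for the nets of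
    -- the Banach space `LipFree M o`
    (∀ (M : Type u) [MetricSpace M] (o : M), UniformlyDiscrete M →
      [HasBAP (LipFree M o),
        ∀ N : Set (LipFree M o), IsNet N → ∀ p : N, HasBAP (LipFree N p),
        ∃ (N : Set (LipFree M o)) (_ : IsNet N) (p : N), HasBAP (LipFree N p)].TFAE) ∧
    -- (7) the whole question is equivalent to its restriction to nets in Banach spaces, and to
    -- its restriction to connected graphs with the shortest-path metric
    [∀ (M : Type u) [MetricSpace M] (o : M), UniformlyDiscrete M → HasBAP (LipFree M o),
      ∀ (X : Type u) [NormedAddCommGroup X] [NormedSpace ℝ X] [CompleteSpace X] (N : Set X),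
        IsNet N → ∀ o : N, HasBAP (LipFree N o),
      ∀ (V : Type u) (G : SimpleGraph V) (hG : G.Connected) (o : GraphSpace G hG),
        HasBAP (LipFree (GraphSpace G hG) o)].TFAE := by
  refine ⟨?_, ?_, ?_, ?_, ?_, ?_, ?_⟩
  · intro X M _ _ _ _ o hX hM hr
    exact hasBAP_of_coarseRetract_banach hX hM hr
  · intro X _ _ _ hX N hN o
    exact hasBAP_of_coarseRetract_banach hX hN.1 hN.coarseRetract
  · intro M _ o hM hg hh
    exact hasBAP_of_hyperbolic hM hh hg
  · intro V G hG hh o
    exact hasBAP_hyperbolic_graph G hG hh o
  · intro M M' _ _ o o' hM hM' hr h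
    exact hasBAP_of_coarseRetract hM hM' hr h
  · intro M _ o hM
    exact hasBAP_tfae_net o hM
  · tfae_have 1 → 3 := fun h V G hG o => h _ o (uniformlyDiscrete_graph G hG)
    tfae_have 3 → 2 := fun h X _ _ _ N hN o => hasBAP_net_of_graph hN o h
    tfae_have 2 → 1 := fun h M _ o hM =>
      ((hasBAP_tfae_net o hM).out 0 1).2 fun N hN p => h (LipFree M o) N hN p
    tfae_finish
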